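import Vale.Agent.P151W95.Main

open MeasureTheory ProbabilityTheory

namespace Vale.Agent.Results.P151.AARandomEdges

open Vale.Agent.P151W95

universe u v

/-- **No percolation at the critical point.**
1. Let `G` be an infinite, connected, locally finite graph. The events that `N_∞ ≥ 1` (some open
   cluster is infinite) and that the cluster of `x` is infinite are measurable; under `P_p` the
   edges are open independently with probability `p`, and every such family of edge variables, on any probability
   space, has law `P_p`; `P_1(N_∞ ≥ 1) = 1`, so that `p_c` is the infimum of a nonempty set. If `G`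
   is quasi-transitive and `p_c < 1`, then at `p = p_c` there is almost surely no infinite open
   cluster, and `θ_x(p_c) = 0` for all `x`.
2. On `ℤ^d`, `d ≥ 2`: `0 < p_c < 1`, there is almost surely no infinite open cluster at `p_c`,
   `θ_x(p_c) = 0`, and `θ_x` is continuous on `[0, 1]`. -/
theorem result :
    (∀ (V : Type u) [Infinite V] (G : SimpleGraph V) [G.LocallyFinite], G.Connected →
      (MeasurableSet {ω | 1 ≤ numInf G ω} ∧
        ∀ x, MeasurableSet {ω | ((openGraph G ω).connectedComponentMk x).supp.Infinite}) ∧
      (∀ p, IsBond G p (bond G p) fun e ω => ω e) ∧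
      (∀ (p : unitInterval) (Ω : Type v) [MeasurableSpace Ω] (P : Measure Ω)
        (X : G.edgeSet → Ω → Bool), IsBond G p P X → HasLaw (fun ω e => X e ω) (bond G p) P) ∧
      bond G 1 {ω | 1 ≤ numInf G ω} = 1 ∧
      (QuasiTransitive G → pc G < 1 →
        bond G (pc G) {ω | 1 ≤ numInf G ω} = 0 ∧ (∀ x, theta G x (pc G) = 0) ∧
        ∀ (Ω : Type v) [MeasurableSpace Ω] (P : Measure Ω) (X : G.edgeSet → Ω → Bool),
          IsBond G (pc G) P X → ∀ᵐ ω ∂P, numInf G (fun e => X e ω) = 0)) ∧
    ∀ d : ℕ, 2 ≤ d →
      0 < pc (lattice d) ∧ pc (lattice d) < 1 ∧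
      bond (lattice d) (pc (lattice d)) {ω | 1 ≤ numInf (lattice d) ω} = 0 ∧
      ∀ x, theta (lattice d) x (pc (lattice d)) = 0 ∧ Continuous (theta (lattice d) x) :=
  ⟨fun _ _ G _ hG => P151W95.main G hG, P151W95.main_lattice⟩

end Vale.Agent.Results.P151.AARandomEdges
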